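import Vale.Agent.N333C.Final

namespace Vale.Agent.Results.P333.A0Circular

open Vale.Agent.N333C

/-- On every instance `S`, `f S` is a common superstring of length at most
`CYC(S) + max (CYC(S), maxLen(S) - 1)`, `g S` is a circular superstring of length at most
`2 CYC(S)`, and all letters of `f S` and `g S` occur in members of `S`. -/
def Sharp {A : Type} (f g : List (List A) → List A) : Prop :=
  ∀ S, Super S (f S) ∧ (f S).length ≤ CYC S + max (CYC S) (maxLen S - 1) ∧
    Circ S (g S) ∧ (g S).length ≤ 2 * CYC S ∧ ∀ a ∈ f S ++ g S, ∃ s ∈ S, a ∈ s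

theorem sharp {A : Type} {f g : List (List A) → List A} (h : Good f g) : Sharp f g := fun S =>
  ⟨(h S).1, (h S).2.1, (h S).2.2.2⟩

/-- (1), (2) Polynomial time algorithms with guarantees against the shortest circular superstring,
for natural numbers as letters and for every finite alphabet. (3) Comparison of the circular
optimum and of the largest length with `OPT`. -/
theorem result :
    (∃ f g : List (List ℕ) → List ℕ, PolyTime (fun S => tape (S.map binary)) binary f ∧
      PolyTime (fun S => tape (S.map binary)) binary g ∧ Sharp f g) ∧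
    (∀ (A : Type) [Finite A], ∃ f g : List (List A) → List A,
      PolyTime tape id f ∧ PolyTime tape id g ∧ Sharp f g) ∧
    ∀ (A : Type) (S : List (List A)), CYC S ≤ OPT S ∧ maxLen S ≤ OPT S :=
  ⟨⟨_, _, polyTime_binary pt_algLin, polyTime_binary pt_algCirc, sharp good_nat⟩,
    fun A _ => (exists_fin A).imp fun _ h => h.imp fun _ h => ⟨h.1, h.2.1, sharp h.2.2⟩,
    fun _ S => ⟨cyc_le_opt S, maxLen_le_opt S⟩⟩

end Vale.Agent.Results.P333.A0Circular
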