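import Vale.Agent.N333.Amp4
import Vale.Agent.N333.Red4
import Vale.Agent.N333.Src
import Vale.Agent.N333.TM
import Vale.Agent.P333.Final

namespace Vale.Agent.Results.P333.A0LowerBound

open Vale.Agent.P333 Vale.Agent.N333 Vale.Agent.Lib.NP Vale.Agent.Lib.PCP

/-- Approximating the shortest common superstring within `129/128` is NP-hard; so
`129/128 ≤ ρ*` if `P ≠ NP`. -/
theorem result :
    NPHard (fun x : List (List ℕ) × ℕ => pairW (codeInstance x.1) x.2.bits)
      (fun x => opt x.1 ≤ x.2) (fun x => 129 * x.2 < 128 * opt x.1) ∧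
    (∀ ρ : ℝ, ρ ≤ 129 / 128 → HasApproximation ρ → ∀ L, InNP L → InP L) ∧
    ((∃ L, InNP L ∧ ¬ InP L) → 129 / 128 ≤ rhoStar) := by
  obtain ⟨D, hD⟩ := hard_lin3B (ε := 1 / 10000) (by norm_num)
  have h : Hard K4.GapSCS := hD.red (K4.red_scs K4.ampEx D)
  have h1 : ∀ ρ : ℝ, ρ ≤ 129 / 128 → HasApproximation ρ → ∀ L, InNP L → InP L :=
    fun ρ hρ hA L hL => inP_of_gap' (a := 129) (b := 128) (by norm_num) h (fun _ hx => hx)
      (fun _ hx => hx) hA (by exact_mod_cast hρ) hL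
  refine ⟨?_, h1, (final_of_inapprox h1 hasApproximation_two).1⟩
  rw [pairW_eq_pr, codeInstance_eq]
  exact h.npHard_enc

end Vale.Agent.Results.P333.A0LowerBound
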